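import Vale.Agent.P057TF.Gen
import Vale.Agent.P057FC.Tz
import Vale.Agent.P057MA.Scl

/-!
The centres of the frozen cube system over a model.
-/

set_option linter.all false

open Matrix Finset
open Vale.Agent.P267.H775 Vale.Agent.P057G Vale.Agent.P057PC Vale.Agent.P057TP Vale.Agent.P057MA
open Vale.Agent.P057SG Vale.Agent.P057AS Vale.Agent.P057FC
open Vale.Agent.P057ST (mR)
open Vale.Agent.P057DP (pbo ok_pbo at_pbo img mem_img)
open Vale.Agent.P057DI (sig pr_sig sig_cast ov)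
open Vale.Agent.P057GH (lb_ext pr_congr)
open Vale.Agent.P057EN (tot tot_lab lab_eq lin_pr)
open Vale.Agent.P057SY (fo)
open Vale.Agent.P057SK (bs_none er_fo none_fo fo_inj exists_dn hc_omo none_img none_lfo ps cL_ps
  at_jko rmo_pure md_int)
open Vale.Agent.P057S1 (jn up ext ok_ext at_ext bs_unit card_ins inj_ins gl3_pu gl3_li lin_nl
  jn_pure toR_gl3)

namespace Vale.Agent.P057TF

noncomputable section

open Classical

namespace Cn

theorem card_fo {T : Tow} {C U : Type} [Fintype U] [DecidableEq U] {cl : U → C} {m : ℕ}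
    {l : Lb T cl Unit m} (h : l.Pure) : (fo l).card = T.lv l.cd := by
  unfold fo
  split_ifs with e
  · rw [card_image_of_injective _ (Option.some_injective _), l.card_eq e]
  · rw [card_ins, h.resolve_left e]

theorem pr_li {T : Tow} {C U : Type} [Fintype U] [DecidableEq U] {cl : U → C} {m : ℕ}
    {Z : Sys T U Unit} (h : Z.Ok) {x x' : Lb T cl Unit m → ℝ} (h1 : ∀ l, Pu l → x l = x' l)
    (h2 : ∀ l, Li l → x l = x' l) (l : LS T cl m) : Z.pr cl m x l = Z.pr cl m x' l := by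
  have e : (up l).fc = fo l.1 := (if_neg l.2.2).symm
  rw [pr_ex h x (k := up l) rfl e rfl, pr_ex h x' (k := up l) rfl e rfl,
    pr_pure _ rfl fun j hj _ => jn_pure h1 h2 hj,
    show pu x = pu x' from funext fun k => ite_congr rfl (h1 k) fun _ => rfl]

theorem cL_add {T : Tow} {C U : Type} [Fintype U] [DecidableEq U] {cl : U → C} {m : ℕ}
    {Z : Sys T U Unit} (h : Z.Ok) (w : PW T cl m → ℤ) (z t : LS T cl m → ℤ) (y : NP T cl m → ℤ)
    (d : ℕ) (l : LS T cl m) : Z.pr cl m (toR (gl3 w (fun j => z j + d * t j) y)) l =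
      cL Z w (toR z) l + d * (cL Z w (toR t) l - cL Z w 0 l) := by
  have h1 := lin_nl h w
  have h2 := congrFun ((h1.map_add (toR z) ((d : ℝ) • toR t)).trans
    (congrArg _ (h1.map_smul _ _))) l
  rw [toR_gl3, pr_li h (x' := gl3 (toR w) (toR z + (d : ℝ) • toR t) 0)
    (fun j c => (gl3_pu _ _ _ ⟨j, c⟩).trans (gl3_pu _ _ _ ⟨j, c⟩).symm) fun j c =>
      (gl3_li _ _ _ ⟨j, c⟩).trans (Eq.trans (by simp) (gl3_li _ _ _ ⟨j, c⟩).symm)]
  simp only [Pi.add_apply, Pi.sub_apply, Pi.smul_apply, smul_eq_mul] at h2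
  exact sub_left_inj.1 (h2.trans (by ring))

section labels

variable {T : Tow} {n p : ℕ} {R O : Type} [Fintype R] [DecidableEq R] [Fintype O] [DecidableEq O]
  {π : O → Uv n p R}

/-- the vertices of the model among the vertices of the frozen system and the special vertex -/
def gz : Vo n p O → Option (Wz n p O) := Option.map emz

theorem gz_inj : (gz : Vo n p O → _).Injective := Option.map_injective emz.injective

theorem gz_cl (π : O → Uv n p R) (v v' : Vo n p O)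
    (h : (gz v).map (cZ n p O) = (gz v').map (cZ n p O)) : cVo π v = cVo π v' := by
  rcases v with _ | v | v <;> rcases v' with _ | v' | v' <;>
    simp_all [gz, emz, cZ, cO, cVo]

theorem om_gz (v : Vo n p O) : (gz v).bind (omz π) = omo π v := by
  rcases v with _ | v | v <;> rfl

theorem bs_ic (k : Lo T π) : (ic k).bs = none ↔ none ∉ k.fc := by
  by_cases h : none ∈ k.fc <;> simp [ic, Lb.bs, h]

theorem fo_ic (k : Lo T π) : fo (ic k) = k.fc.image gz := by
  ext x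
  cases x with
  | none => rw [none_fo, Ne, bs_ic, not_not]; exact (gz_inj.mem_finset_image (a := none)).symm
  | some w =>
    rw [← mem_eraseNone, er_fo]
    change w ∈ (eraseNone k.fc).map emz ↔ _
    simp only [mem_map, mem_eraseNone, mem_image, gz, Option.map_eq_some_iff]
    exact ⟨fun ⟨a, h, e⟩ => ⟨_, h, a, rfl, e⟩, fun ⟨_, h, a, c, e⟩ => ⟨a, c ▸ h, e⟩⟩

theorem ic_inj : (ic : Lo T π → _).Injective := fun k k' e =>
  lb_ext (congrArg Lb.cd e :) (image_injective gz_inj (by rw [← fo_ic, e, fo_ic]))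
    ((bs_none k).trans (bs_none k').symm)

theorem mk_ic {i : Lz T n p O} (hp : i.Pure) {A : Finset (Vo n p O)} (hA : Set.InjOn (cVo π) A)
    (h : A.image gz = fo i) : ∃ k : Lo T π, ic k = i :=
  ⟨⟨(i.cd, A, none), i.2.1, hA, by
    rw [← card_fo hp, ← h, card_image_of_injective _ gz_inj]; rfl⟩,
    fo_inj rfl ((fo_ic _).trans h)⟩

theorem mem_fc {i : Lz T n p O} {x : Wz n p O} : x ∈ i.fc ↔ some x ∈ fo i := by
  rw [← mem_eraseNone, er_fo]

theorem img_fo (i : Lz T n p O) :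
    img (omz π) i.fc = eraseNone ((fo i).image (·.bind (omz π))) := by
  ext u
  simp only [mem_img, mem_eraseNone, mem_image, mem_fc, Option.bind_eq_some_iff]
  exact ⟨fun ⟨a, h, e⟩ => ⟨_, h, a, rfl, e⟩, fun ⟨_, h, a, c, e⟩ => ⟨a, c ▸ h, e⟩⟩

theorem ic_iff {k : Lo T π} {l : Lu T n p R} (h : k.cd = l.cd) :
    img (omz π) (ic k).fc = l.fc ↔ k.fc.image (omo π) = fo l ∧ l.Pure := by
  have e : img (omz π) (ic k).fc = eraseNone (k.fc.image (omo π)) := by
    rw [img_fo, fo_ic, image_image]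
    exact congrArg _ (image_congr fun v _ => om_gz v)
  obtain ⟨j, h1, h2, h3⟩ := exists_dn (P057GH.lift hc_omo (Empty.elim : Empty → Unit) k)
    (by rw [P057GH.lift_bs, bs_none k]; rfl)
  rw [P057GH.lift_fc] at h2
  refine ⟨fun c => ?_, fun c => by rw [e, c.1, er_fo]⟩
  rw [e, ← h2, er_fo] at c
  obtain rfl := lab_eq (bs_unit l) (bs_unit j) (h1.trans h) c
  exact ⟨h2.symm, h3⟩

theorem mem_ic {i : Lz T n p O} {l : Lg T n p R} (hb : i.bs ≠ none) (h1 : i.cd = l.1.cd)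
    (h2 : img (omz π) i.fc = l.1.fc) : ∃ k : Lo T π, ic k = i := by
  have e : (fo i).image (·.bind (omz π)) = fo l.1 := by
    ext x
    cases x with
    | none => exact iff_of_true (mem_image.2 ⟨none, none_fo.2 hb, rfl⟩) (none_fo.2 l.2.2)
    | some u => rw [← mem_eraseNone, ← img_fo, h2, ← mem_eraseNone, er_fo]
  have c1 : (fo i).card = i.fc.card + 1 := by rw [fo, if_neg hb, card_ins]
  have c2 := i.card_lt ((bs_unit i).resolve_left hb)
  have c3 := card_fo l.2.1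
  have c4 := card_image_le (s := fo i) (f := (·.bind (omz π)))
  rw [e] at c4
  rw [h1] at c2
  have hi : Set.InjOn (·.bind (omz π)) (fo i : Set (Option (Wz n p O))) :=
    injOn_of_card_image_eq (by rw [e]; omega)
  refine mk_ic (Or.inr (by rw [h1]; omega)) (A := univ.filter fun v => gz v ∈ fo i)
    (fun v hv w hw c => gz_inj (hi (mem_filter.1 hv).2 (mem_filter.1 hw).2 ?_)) ?_
  · have k : ∀ v, gz v ∈ fo i → omo π v ∈ insert none (l.1.fc.image some) := fun v hv => by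
      rw [← show fo l.1 = _ from if_neg l.2.2, ← e, ← om_gz]
      exact mem_image_of_mem _ hv
    simp only [om_gz]
    exact inj_ins l.1 (k v (mem_filter.1 hv).2) (k w (mem_filter.1 hw).2) ((hc_omo _ _).2 c)
  · ext x
    simp only [mem_image, mem_filter, mem_univ, true_and]
    refine ⟨fun ⟨v, a, b⟩ => b ▸ a, fun a => ?_⟩
    rcases x with _ | v | _ | o
    · exact ⟨none, a, rfl⟩
    · exact ⟨some (Sum.inl v), a, rfl⟩
    · cases hi a (none_fo.2 hb) rfl
    · exact ⟨some (Sum.inr o), a, rfl⟩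

theorem sub_ic {i : Lz T n p O} {l : Lo T π} (hb : i.bs = none) (h : i.fc ⊆ (ic l).fc) :
    ∃ k : Lo T π, ic k = i := by
  obtain ⟨A, h1, h2⟩ := subset_image_iff.1 (show fo i ⊆ l.fc.image gz from fun x hx => by
    rw [← fo_ic]
    cases x with
    | none => exact absurd hb (none_fo.1 hx)
    | some x => exact mem_fc.1 (h (mem_fc.2 hx)))
  exact mk_ic (Or.inl hb) (l.2.2.1.mono h1) h2

end labels

variable {T : Tow} {n p : ℕ} {R ι : Type} [Fintype ι] [DecidableEq ι] [Fintype R] [DecidableEq R]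
  {M : Mdd T n p R ι} {Z : Sys T (Uv n p R) Unit} {γ U : ℝ} {S : MS (Option (Fin n)) ι}
  {φ : (ι → ℝ) → Lu T n p R → ℝ} {k s : ℕ} {N : ℝ}

theorem at_z (h : Md M Z γ S φ k U) (o : Option Unit) (B : Finset (Wz n p M.O)) (a : T.ι) :
    (Zz M Z).fam.at' o B a = Z.fam.at' o (img (jkz M.jo) B) a := by
  rw [Zz, at_pbo Z (cl₁ := id) (fun v v' u h1 h2 => ?_) o (Set.injOn_id _)]
  · cases o <;> rfl
  · rcases v with v | _ | v <;> rcases v' with v' | _ | v' <;> try cases h1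
    all_goals try cases h2
    rw [(h.ju u).unique h1 h2]

theorem at_o (h : Md M Z γ S φ k U) (B : Finset (Vo n p M.O)) (a : T.ι) :
    (pbo Z (jko M.jo) Empty).fam.at' none B a = Z.fam.at' none (img (jko M.jo) B) a := by
  rw [at_pbo Z (cl₁ := id) (fun v v' u h1 h2 => ?_) none (Set.injOn_id _)]
  · rfl
  · rcases v with _ | v | v <;> rcases v' with _ | v' | v' <;> try cases h1
    all_goals try cases h2
    rw [(h.ju u).unique h1 h2]

theorem ok_z (hZ : Z.Ok) : (Zz M Z).Ok := ok_pbo hZ _ _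

theorem pr_ic (hZ : Z.Ok) (h : Md M Z γ S φ k U) (u : Lz T n p M.O → ℝ) (l : Lo T M.π) :
    (Zz M Z).pr (cZ n p M.O) (n + 2) u (ic l) =
      (pbo Z (jko M.jo) Empty).pr (cVo M.π) (n + 2) (u ∘ ic) l +
      if none ∈ l.fc then (Zz M Z).pr (cZ n p M.O) (n + 2) (pu u) (ic l) else 0 := by
  rw [pr_ex (ok_z hZ) u (k := im gz_inj (gz_cl M.π) Unit l) rfl (fo_ic l).symm rfl,
    ← pr_im gz_inj (gz_cl M.π) (Z' := pbo Z (jko M.jo) Empty) _ l fun B _ => ?_]
  · simp only [bs_ic, ite_not]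
    congr 2
    funext j
    change jn _ u u _ = u (ic j)
    rw [jn, ite_self, ← tot_lab u (bs_unit (ic j)), ← er_fo (ic j), fo_ic]
    rfl
  · rw [at_ext, at_o h, at_z h]
    congr 1
    ext w
    simp only [mem_img, mem_eraseNone, mem_image]
    refine ⟨fun ⟨v, a, b⟩ => ?_, fun ⟨x, ⟨v, a, b⟩, c⟩ => ⟨v, a, ?_⟩⟩
    · rcases v with _ | v | v
      · cases b
      · cases b
      · exact ⟨Sum.inr (some v), ⟨_, a, rfl⟩, b⟩
    · rcases v with _ | v | v <;> cases b
      · cases c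
      · exact c

theorem pr_sg (hZ : Z.Ok) (h : Md M Z γ S φ k U) (u : Lz T n p M.O → ℝ) (l : Lu T n p R) :
    Z.pr cU (n + 2) (sig (omz M.π) () u) l =
      sig (omz M.π) () ((Zz M Z).pr (cZ n p M.O) (n + 2) u) l := by
  refine pr_sig hZ (ok_z hZ) (fun B hB v hv w hw e => ?_) (fun B _ a => ?_) u (bs_unit l)
  · rcases v with v | v <;> rcases w with w | w
    · have := hB ((mem_filter.1 hv).2 _ rfl) ((mem_filter.1 hw).2 _ rfl)
        (congrArg some (Sum.inl_injective e))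
      rw [Sum.inl_injective this]
    · cases e
    · cases e
    · exact congrArg _ (Sum.inr_injective e)
  · rw [at_z h]
    congr 1
    ext w
    simp only [mem_img, ov, mem_filter, mem_univ, true_and]
    refine ⟨fun c => ?_, fun ⟨x, a, b⟩ => ?_⟩
    · obtain ⟨o, d, -⟩ := h.ju w
      exact ⟨Sum.inr (some o), fun v e => Option.some.inj e ▸ (h.jp o w d).symm ▸ c, d⟩
    · rcases x with v | _ | o
      · cases b
      · cases b
      · exact a w (congrArg some (h.jp o w b))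

variable {d : ℕ} {ξ : Lz T n p M.O → ℤ}

theorem xk_lab (h : Md M Z γ S φ k U) (l : Lvo T M.π) : xk M (Sz M *ᵥ ξ) (M.lab l) = ξ (ic l.1) := by
  rw [xk, h.inj.extend_apply]
  simp [Sz, mulVec, dotProduct]

theorem liv {l : Lo T M.π} (h : none ∈ l.fc) : Livo l := ⟨none, none_lfo.2 h⟩

theorem X_ic (h : Md M Z γ S φ k U) (l : Lo T M.π) : toR (Xz M d ξ) (ic l) =
    (if none ∈ l.fc then (d : ℝ) else 1) * glo M.e (toR (xk M (Sz M *ᵥ ξ)) ∘ M.lab) M.D l := by
  rw [toR_apply, Xz, ic_inj.extend_apply, glo]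
  by_cases c : Livo l
  · rw [if_pos c, dif_pos c, Function.comp_apply, toR_apply, xk_lab h ⟨l, c⟩, mo]
    push_cast
    rw [mul_assoc]
  · rw [if_neg c, dif_neg c, if_neg fun e => c (liv e), one_mul]

theorem e_pos (h : Md M Z γ S φ k U) (A : Finset (Vo n p M.O)) : 0 < ∏ u ∈ A, (M.e u : ℝ) :=
  prod_pos fun u _ => Nat.cast_pos.2 (h.eb u).1

theorem P_ic (hT : T.Ok s N) (hZ : Z.Ok) (h : Md M Z γ S φ k U) (l : Lvo T M.π) :
    (Zz M Z).pr (cZ n p M.O) (n + 2) (toR (Xz M d ξ)) (ic l.1) =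
      (if none ∈ l.1.fc then (d : ℝ) else 1) * ((∏ u ∈ l.1.fc, (M.e u : ℝ)) *
        S.p (toR (xk M (Sz M *ᵥ ξ))) (M.lab l)) +
      (∏ u ∈ l.1.fc, (M.e u : ℝ)) * cz M Z (xk M (Sz M *ᵥ ξ)) (M.lab l) := by
  rw [pr_ic hZ h, h.cen, cz, h.inj.extend_apply]
  by_cases c : none ∈ l.1.fc
  · rw [if_pos c, if_pos c, if_pos c, mul_div_cancel₀ _ (e_pos h _).ne']
    congr 1
    · rw [← Lin.smul_mix (lin_pr (ok_pbo hZ _ _) (bs_none l.1) c (fun B => ?_)
        (r := univ.filter fun j => none ∈ j.fc) fun j => by simp)]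
      · congr 1
        funext j
        rw [Function.comp_apply, X_ic h]
        by_cases e : none ∈ j.fc <;> simp [mix, e]
      · rw [bs_none l.1, at_o h, at_o h]
        congr 1
        ext w
        simp [mem_img, jko]
    · refine pr_congr hT (ok_z hZ) fun i hi _ _ => ?_
      by_cases e : ∃ j : Lo T M.π, ic j = i
      · obtain ⟨j, rfl⟩ := e
        rw [ic_inj.extend_apply, pu, X_ic h]
        by_cases b : none ∈ j.fc <;> simp [bs_ic, b]
      · rw [Function.extend_apply' _ _ _ e]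
        exact if_neg fun b => e (sub_ic b hi)
  · rw [if_neg c, if_neg c, if_neg c, one_mul, mul_zero]
    congr 1
    refine pr_pure _ (bs_none l.1) fun j _ hj => ?_
    rw [Function.comp_apply, X_ic h, if_neg fun e => c (hj e), one_mul]

theorem mz_one {i : Lz T n p M.O} (h : ¬∃ l : Lo T M.π, ic l = i) : mz M d i = 1 :=
  Function.extend_apply' _ _ _ h

theorem cen_x (hT : T.Ok s N) (hZ : Z.Ok) (h : Md M Z γ S φ k U) (hd : 0 < d) (l : Lvo T M.π) :
    S.p (toR (xk M (Sz M *ᵥ ξ))) (M.lab l) + (d : ℝ)⁻¹ * cz M Z (xk M (Sz M *ᵥ ξ)) (M.lab l) =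
      (Zz M Z).pr (cZ n p M.O) (n + 2) (toR (Xz M d ξ)) (ic l.1) / mz M d (ic l.1) := by
  have h1 := (e_pos h l.1.fc).ne'
  have h2 : (d : ℝ) ≠ 0 := Nat.cast_ne_zero.2 hd.ne'
  rw [P_ic hT hZ h, mz, ic_inj.extend_apply, if_pos l.2, mo]
  by_cases c : none ∈ l.1.fc
  · simp only [if_pos c]
    push_cast
    field_simp
  · have : cz M Z (xk M (Sz M *ᵥ ξ)) (M.lab l) = 0 := by rw [cz, h.inj.extend_apply, if_neg c]
    simp only [if_neg c, this, mul_zero, add_zero, one_mul]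
    push_cast
    field_simp

theorem cen_y (v : Lz T n p M.O → ℝ) (l : NP T (cU : Uv n p R → _) (n + 2)) :
    sig (omz M.π) () v l.1 = (mR (Sz M) *ᵥ fun i => v i / mz M d i) (Sum.inr (Sum.inr l)) := by
  refine sum_congr rfl fun i _ => ?_
  by_cases c : i.cd = l.1.cd ∧ img (omz M.π) i.fc = l.1.fc
  · have : mz M d i = 1 := mz_one fun ⟨j, e⟩ => l.2 (by subst e; exact ((ic_iff c.1).1 c.2).2)
    rw [if_pos ⟨c.1, c.2, bs_unit i⟩]
    simp [mR, Sz, c, this]
  · rw [if_neg fun e => c ⟨e.1, e.2.1⟩]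
    simp [mR, Sz, c]

theorem cen_z (v : Lz T n p M.O → ℝ) (l : Lg T n p R) :
    sig (omz M.π) () v l.1 = (mR (Sz M) *ᵥ fun i => v i / mz M d i) (Sum.inr (Sum.inl l)) +
      ps (omo M.π) (v ∘ ic (π := M.π)) l.1.cd (fo l.1) := by
  rw [ps, Fintype.sum_of_injective ic ic_inj _ (fun i => if i.cd = l.1.cd ∧
    img (omz M.π) i.fc = l.1.fc ∧ i.bs ≠ none then v i else 0)
    (fun i c => if_neg fun e => c (mem_ic e.2.2 e.1 e.2.1)) fun j => ?_]
  · rw [mulVec, dotProduct, ← sum_add_distrib]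
    refine sum_congr rfl fun i _ => ?_
    by_cases c : i.cd = l.1.cd ∧ img (omz M.π) i.fc = l.1.fc
    · rw [if_pos ⟨c.1, c.2, bs_unit i⟩]
      by_cases b : i.bs = none
      · have : mz M d i = 1 := mz_one fun ⟨j, e⟩ => by
          subst e
          exact (bs_ic j).1 b ((none_img ((ic_iff c.1).1 c.2).1).2 l.2.2)
        simp [mR, Sz, c, b, this]
      · simp [mR, Sz, c, b]
    · rw [if_neg fun e => c ⟨e.1, e.2.1⟩, if_neg fun e => c ⟨e.1, e.2.1⟩]
      have : ¬(i.cd = l.1.cd ∧ img (omz M.π) i.fc = l.1.fc ∧ i.bs = none) := fun e => c ⟨e.1, e.2.1⟩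
      simp [mR, Sz, this]
  · refine @if_congr _ _ _ (_) (_) _ _ _ _ (and_congr_right fun e => ?_) rfl rfl
    rw [ic_iff e, Ne, bs_ic, not_not]
    exact ⟨fun c => ⟨⟨c, l.2.1⟩, (none_img c).2 l.2.2⟩, fun c => c.1.1⟩

theorem cen_l (hZ : Z.Ok) (h : Md M Z γ S φ k U) (η : Kz M → ℤ) (l : Lg T n p R) :
    Z.pr cU (n + 2) (toR (ok M φ d η)) l = cL Z (rp (φ (toR (xk M η)))) (toR (zk M η)) l +
      d * ps (omo M.π) ((pbo Z (jko M.jo) Empty).pr (cVo M.π) (n + 2)
        (glo M.e (toR (xk M η) ∘ M.lab) M.D)) l.1.cd (fo l.1) := by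
  obtain ⟨y, hy⟩ := md_int h (xk M η)
  rw [ok, cL_add hZ, cL_ps hZ (ok_pbo hZ _ _) hc_omo (at_jko h) (fun j => ?_) (fun j => ?_) l]
  · rw [← rmo_pure _ (Or.inl j.2), ← h.map, rp, hy, toR_apply, round_intCast]
  · rw [← rmo_pure _ j.2.1, ← h.map, hy, toR_apply, toR_apply, round_intCast]

theorem cen_p (hT : T.Ok s N) (hZ : Z.Ok) (h : Md M Z γ S φ k U) (l : Lg T n p R) :
    ps (omo M.π) ((Zz M Z).pr (cZ n p M.O) (n + 2) (toR (Xz M d ξ)) ∘ ic (π := M.π)) l.1.cd
      (fo l.1) = φ (cz M Z (xk M (Sz M *ᵥ ξ))) l + d * ps (omo M.π) ((pbo Z (jko M.jo) Empty).pr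
        (cVo M.π) (n + 2) (glo M.e (toR (xk M (Sz M *ᵥ ξ)) ∘ M.lab) M.D)) l.1.cd (fo l.1) := by
  rw [h.map, rmo_pure _ l.2.1, ps, ps, ps, mul_sum, ← sum_add_distrib]
  refine sum_congr rfl fun j _ => ?_
  split_ifs with c
  · have b := (none_img c.2).2 l.2.2
    rw [Function.comp_apply, P_ic hT hZ h ⟨j, liv b⟩, if_pos b, h.cen, glo, dif_pos (liv b),
      add_comm]
    rfl
  · simp

end Cn

open Cn in
theorem cen (hO : OLD) : CEN := by
  intro s N T n p R ι _ _ _ _ M Z γ S φ k U d hT hZ hS h hU hd ξ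
  have e := congrArg toR ((hO s N T n p R ι M Z γ S φ k U d hT hZ hS h hU hd).1 ξ)
  rw [sig_cast] at e
  funext j
  rcases j with l | l | l
  · exact (cen_x hT hZ h hd l).trans (by simp [mR, Sz, mulVec, dotProduct])
  · have h1 := cen_l (d := d) hZ h (Sz M *ᵥ ξ) l
    rw [e, pr_sg hZ h, cen_z (d := d)] at h1
    rw [cen_p hT hZ h, ← add_assoc, add_left_inj] at h1
    exact sub_eq_iff_eq_add.2 h1.symm
  · exact (congrArg (Z.pr cU (n + 2) · l.1) e).trans ((pr_sg hZ h _ _).trans (cen_y _ l))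

end

end Vale.Agent.P057TF
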