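import Vale.Agent.P057FC.Tz

/-! The intermediate state as one sum. -/

set_option linter.all false

open Matrix Finset
open Vale.Agent.P267.H775 Vale.Agent.P057G Vale.Agent.P057PC Vale.Agent.P057TP Vale.Agent.P057MA
open Vale.Agent.P057SG Vale.Agent.P057AS Vale.Agent.P057FC
open Vale.Agent.P057ST (Er Ex_er)

namespace Vale.Agent.P057TF

noncomputable section

theorem er_sum {L K : Type} [Fintype L] [DecidableEq L] [Fintype K] [DecidableEq K]
    {lv : L ⊕ K → ℕ} {p : (L ⊕ K → ℤ) → L ⊕ K → ℝ} (hp : Tri lv p)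
    {A : Matrix L L ℝ} {B : Matrix K K ℝ} (hA : A.PosDef) (hB : B.PosDef)
    {p1 : (L → ℤ) → L → ℝ} (h1 : ∀ x y i, p (Sum.elim x y) (Sum.inl i) = p1 x i)
    {f : (L ⊕ K → ℤ) → ℝ} {C : ℝ} (hf : ∀ z, |f z| ≤ C) :
    Er (fromBlocks A 0 0 B) p f = Er A p1 fun x =>
      Er B (fun y i => p (Sum.elim x y) (Sum.inr i)) fun y => f (Sum.elim x y) := by
  have := P057EN.Ex_sum hp hA hB h1 (f := fun z => (f z : ℂ)) (C := C) fun z => by
    rw [Complex.norm_real]; exact hf z
  simp only [Ex_er] at this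
  exact_mod_cast this

theorem tsum_wsh {C ι L : Type} [DecidableEq C] [Fintype ι] [DecidableEq ι] [Fintype L]
    [DecidableEq L] (S : MS (Option C) ι) {e : L → ι} (he : e.Injective) (a : (ι → ℤ) → ι → ℝ)
    (F : (ι → ℤ) → ℝ) :
    ∑' x, wsh S (univ.image e) (a x) x / vl S.G (univ.image e) * F x =
      Er (S.G.submatrix e e) (fun y l => S.p (toR (Function.extend e y 0)) (e l) +
        a (Function.extend e y 0) (e l)) fun y => F (Function.extend e y 0) := by
  have hi : Function.Injective fun z : L → ℤ => Function.extend e z 0 := fun z z' h =>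
    funext fun i => by simpa only [he.extend_apply] using congrFun h (e i)
  have h0 : ∀ (y : L → ℤ), ∀ i ∉ univ.image e, Function.extend e y 0 i = 0 := fun y i hi =>
    Function.extend_apply' _ _ _ fun ⟨l, hl⟩ => hi (mem_image.2 ⟨l, mem_univ _, hl⟩)
  rw [← hi.tsum_eq]
  · refine tsum_congr fun y => ?_
    rw [wsh, if_pos (h0 y), vl_image he (G := S.G.submatrix e e) fun _ _ _ _ => rfl, vl_univ, ng,
      gs, gs, qq_msk_image he (G := S.G.submatrix e e) fun _ _ _ _ => rfl]
    congr 6
    funext l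
    simp only [msk_pos _ (mem_univ l), Function.comp, Pi.sub_apply, toR_apply, he.extend_apply]
    ring
  · intro z hz
    refine ⟨z ∘ e, funext fun j => ?_⟩
    by_cases hj : ∃ i, e i = j
    · obtain ⟨i, rfl⟩ := hj
      exact he.extend_apply _ _ _
    · beta_reduce
      rw [Function.extend_apply' _ _ _ hj]
      by_contra h1
      refine hz ?_
      beta_reduce
      rw [wsh, if_neg fun h => h1 (h j fun h2 => hj ((mem_image.1 h2).imp fun _ h => h.2)).symm,
        zero_div, zero_mul]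

theorem fub : FUB := by
  intro s N T n p R ι _ _ _ _ M Z γ S φ k U d hT hZ hS hM _ _ c0 ω G h f θ B κ σ lv hω hG hh hB hp
    hst
  have g1 := (ok_dil hS {none} hω).pd.submatrix hM.inj
  have g3 := posDef_bk (P057GH.pd_Gam hT.pd (cU : Uv n p R → _) Unit (n + 2)) No
  have e : univ \ M.ex = univ.image M.lab := by
    ext j; simp [Mdd.ex]
  have hf : ∀ η, |h (xk M η) (zk M η) * EG Z f θ (ok M φ d η) - κ| ≤ B + |κ| := fun η =>
    (abs_sub _ _).trans (add_le_add_left ((abs_mul _ _).le.trans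
      ((mul_le_of_le_one_left (abs_nonneg _) (hh _ _)).trans (hB _))) _)
  refine ⟨posDef_blocks g1 (posDef_blocks hG g3), hst.trans (le_of_eq ?_)⟩
  rw [e, tsum_wsh _ hM.inj, Ak, er_sum hp g1 (posDef_blocks hG g3) (p1 := fun y l =>
    S.p (toR (Function.extend M.lab y 0)) (M.lab l) +
      ((d : ℝ)⁻¹ • c0 (Function.extend M.lab y 0)) (M.lab l)) (fun _ _ _ => rfl) hf]
  congr 1
  funext x
  have k := er_sum (P057EN.tri_inr hp x) hG g3 (p1 := fun z l =>
    cL Z (rp (φ (toR (Function.extend M.lab x 0)))) (toR z) l - φ (c0 (Function.extend M.lab x 0)) l)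
    (fun _ _ _ => rfl) fun η => hf (Sum.elim x η)
  rw [k, Er]
  refine tsum_congr fun z => ?_
  congr 1
  · congr 1
    funext l
    simp only [Pi.add_apply, Pi.sub_apply]
    ring

end

end Vale.Agent.P057TF
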