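import Vale.Agent.P057TF.Ic
import Vale.Agent.P057EN.Dbl
import Vale.Agent.P057MA.Scl

/-! The Gram matrices of the transfer. -/

set_option linter.all false

open Matrix Finset
open Vale.Agent.P267.H775 Vale.Agent.P057G Vale.Agent.P057PC Vale.Agent.P057TP Vale.Agent.P057MA
open Vale.Agent.P057SG Vale.Agent.P057AS Vale.Agent.P057FC
open Vale.Agent.P057ST (mR)
open Vale.Agent.P057DP (pbo img mem_img Gam_ne)
open Vale.Agent.P057DI (sig qq_sig)
open Vale.Agent.P057GH (pd_Gam)

namespace Vale.Agent.P057TF.Grm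

noncomputable section

open Classical

theorem qq_wt {L : Type} [Fintype L] [DecidableEq L] {H A : Matrix L L ℝ} (hH : H.PosSemidef)
    {a : L → ℝ} {c : ℝ} (h0 : ∀ i, 0 ≤ a i) (h1 : ∀ i, a i ≤ c)
    (hb : ∀ i j, H i j ≠ 0 → a i = a j) (hA : ∀ i j, A i j = a i * H i j) (w : L → ℝ) :
    qq A w ≤ max c 0 * qq H w := by
  have e : A = P057T1.gsc H fun i => √(a i) := by
    ext i j
    rw [hA, P057T1.gsc, of_apply]
    by_cases k : H i j = 0
    · simp [k]
    · rw [← hb i j k, mul_right_comm, Real.mul_self_sqrt (h0 i)]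
  rw [e, P057T1.qq_gsc]
  refine (qq_scale_le hH (b := fun _ => √(max c 0)) (fun i j k => by rw [hb i j k])
    (fun _ _ _ => rfl) (fun i => ?_) w).trans_eq ?_
  · rw [Real.sq_sqrt (h0 i), Real.sq_sqrt (le_max_right _ _)]
    exact (h1 i).trans (le_max_left _ _)
  · rw [← Real.sq_sqrt (le_max_right c 0), ← qq_smul, Real.sqrt_sq (Real.sqrt_nonneg _)]
    rfl

theorem qq_rs {L : Type} [Fintype L] [DecidableEq L] {G : Matrix L L ℝ} (hG : G.PosDef)
    {P : L → Prop} [DecidablePred P] (h : P057PC.Ort G P) (v : L → ℝ) :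
    qq (bk G P) (rs P v) ≤ qq G v := by
  rw [qq_split hG.1 h v]
  exact le_add_of_nonneg_right (qq_nonneg (posDef_bk hG _).posSemidef _)

variable {T : Tow} {s : ℕ} {N : ℝ}

theorem gam_lv (hT : T.Ok s N) {C W S : Type} {cl : W → C} {m : ℕ} {l l' : Lb T cl S m}
    (e : Gam T cl S m l l' ≠ 0) : T.lv l.cd = T.lv l'.cd :=
  by_contra fun k => e (by simp only [Gam, of_apply, hT.blk _ _ k, ite_self])

theorem ort (hT : T.Ok s N) {C W S : Type} {cl : W → C} {m : ℕ}
    {D : Lb T cl S m → Prop} (h : ∀ l l' : Lb T cl S m, l.fc = l'.fc → l.bs = l'.bs →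
      T.lv l.cd = T.lv l'.cd → D l → D l') : P057PC.Ort (Gam T cl S m) D :=
  fun i j hi hj => by_contra fun e => hj (h i j (Gam_ne e).1 (Gam_ne e).2 (gam_lv hT e) hi)

variable {n p : ℕ} {R ι : Type} [Fintype ι] [DecidableEq ι] [Fintype R] [DecidableEq R]
  (M : Mdd T n p R ι)

theorem mz_ic (d : ℕ) (l : Lo T M.π) : mz M d (ic l) = if Livo l then mo M d l else 1 :=
  ic_inj.extend_apply _ _ _

theorem mz_not (d : ℕ) {i : Lz T n p M.O} (h : ¬∃ l : Lo T M.π, ic l = i) : mz M d i = 1 :=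
  Function.extend_apply' _ _ _ h

theorem mz_blk (d : ℕ) {i j : Lz T n p M.O} (h1 : i.fc = j.fc) (h2 : i.bs = j.bs)
    (h3 : T.lv i.cd = T.lv j.cd) : mz M d i = mz M d j := by
  by_cases k : ∃ l : Lo T M.π, ic l = i
  · obtain ⟨l, rfl⟩ := k
    obtain ⟨l', rfl, e⟩ := blk_ic l h1 h2 h3
    simp only [mz_ic, mo, Livo, lfo, e]
    congr
  · rw [mz_not M d k, mz_not]
    rintro ⟨l, rfl⟩
    exact k ((blk_ic l h1.symm h2.symm h3.symm).imp fun _ h => h.1)

theorem mz_one {d : ℕ} (hd : 0 < d) (he : ∀ u, 1 ≤ M.e u) (i : Lz T n p M.O) : 1 ≤ mz M d i := by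
  by_cases k : ∃ l : Lo T M.π, ic l = i
  · obtain ⟨l, rfl⟩ := k
    rw [mz_ic, mo]
    have : (1 : ℤ) ≤ ∏ u ∈ l.fc, (M.e u : ℤ) := by
      exact_mod_cast one_le_prod'' (s := l.fc) he
    split_ifs
    · exact one_le_mul_of_one_le_of_one_le (by exact_mod_cast hd) this
    · simpa using this
    · rfl
  · rw [mz_not M d k]

end

end Vale.Agent.P057TF.Grm

namespace Vale.Agent.P057TF

open Grm Classical

theorem grm : GRM := by
  intro s N T n p R ι _ _ _ _ M Z γ S φ k U d hT _ _ h hU hd ω G hω hG v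
  have pz := pd_Gam hT.pd (cZ n p M.O) Unit (n + 2)
  have pu := pd_Gam hT.pd (cU : Uv n p R → _) Unit (n + 2)
  have h0 : qq (Gam T (cZ n p M.O) Unit (n + 2)) v ≤
      qq (Gam T (cZ n p M.O) Unit (n + 2)) (toR (mz M d) * v) := by
    have := qq_scale_le pz.posSemidef (a := 1) (b := toR (mz M d)) (fun _ _ _ => rfl)
      (fun i j e => congrArg Int.cast (mz_blk M d (Gam_ne e).1 (Gam_ne e).2 (gam_lv hT e)))
      (fun i => (one_pow 2).trans_le (one_le_pow₀ (by
        rw [toR_apply]; exact_mod_cast mz_one M hd (fun u => (h.eb u).1) i))) v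
    rwa [one_mul] at this
  refine le_trans ?_ (mul_le_mul_of_nonneg_left h0 (by positivity))
  rw [Ak, qq_blocks, qq_blocks, add_mul, two_mul (8 ^ _ : ℝ), add_mul (8 ^ _ : ℝ)]
  refine add_le_add ?_ (add_le_add ((hG _).trans ?_) ?_)
  · have e : (mR (Sz M) *ᵥ v) ∘ Sum.inl = v ∘ fun l : Lvo T M.π => ic l.1 := funext fun l => by
      simp [mR, Sz, mulVec, dotProduct]
    rw [e]
    refine (qq_wt (H := (Gam T (cZ n p M.O) Unit (n + 2)).submatrix (fun l : Lvo T M.π => ic l.1)
      fun l => ic l.1) (c := ω ^ 2 * Real.exp ((n + 2) * ((2 * k + 1) * U)))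
      (a := fun l => (ω ^ (lfo l.1 ∩ {none}).card) ^ 2 * ∏ u ∈ l.1.fc, M.g u)
      (pz.posSemidef.submatrix _) (fun l => mul_nonneg (sq_nonneg _)
        (prod_nonneg fun u _ => zero_le_one.trans (h.gb u).1)) (fun l => ?_) (fun l l' e => ?_)
      (fun l l' => ?_) _).trans ?_
    · refine mul_le_mul (pow_le_pow_left₀ (by positivity) ((pow_le_pow_right₀ hω
        ((card_le_card inter_subset_right).trans_eq (card_singleton _))).trans_eq (pow_one _)) 2) ?_
        (prod_nonneg fun u _ => zero_le_one.trans (h.gb u).1) (sq_nonneg _)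
      refine (prod_le_prod (fun u _ => zero_le_one.trans (h.gb u).1) fun u _ => (h.gb u).2).trans ?_
      rw [prod_const, ← Real.exp_nat_mul]
      refine Real.exp_le_exp.2 (mul_le_mul_of_nonneg_right ?_ (by positivity))
      have := l.1.2.1
      rw [lo_card]
      exact_mod_cast this.le
    · simp only [lfo, ic_fc_iff.1 (Gam_ne e)]
    · change ω ^ _ * S.G _ _ * ω ^ _ = _ * Gam T _ _ _ (ic l.1) (ic l'.1)
      rw [h.G, h.fc, h.fc, gam_ic]
      by_cases e : Gam T (cVo M.π) Empty (n + 2) l.1 l'.1 = 0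
      · simp [e]
      · simp only [lfo, ← (Gam_ne e).1]; ring
    · rw [max_eq_left (by positivity)]
      refine mul_le_mul_of_nonneg_left (P057EN.qq_emb pz (ic_inj.comp Subtype.val_injective)
        (fun _ _ => rfl) (ort hT ?_) v) (by positivity)
      rintro _ j h1 h2 h3 ⟨l, rfl⟩
      obtain ⟨l', rfl, e⟩ := blk_ic l.1 h1 h2 h3
      exact ⟨⟨l', by have := l.2; rwa [Livo, lfo, ← e] at this⟩, rfl⟩
  · have e : ((mR (Sz M) *ᵥ v) ∘ Sum.inr) ∘ Sum.inl =
        rs Li (sig (omz M.π) () fun j => if j.bs = none then v j else 0) := funext fun l => by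
      simp only [mR, Sz, mulVec, dotProduct, Function.comp, map_apply, of_apply, Sum.elim_inr,
        Sum.elim_inl, rs, sig]
      refine sum_congr rfl fun i _ => ?_
      rcases e : i.bs with _ | u <;> simp
    rw [e]
    refine (qq_rs pu (ort hT ?_) _).trans ((qq_sig hT.pd hT.blk _ _).trans
      (mul_le_mul_of_nonneg_left (P057EN.qq_cut pz (ort hT fun l l' _ h2 _ h3 => h2 ▸ h3) v)
        (by positivity)))
    intro l l' h1 h2 h3 h4
    simpa only [Li, Pu, Lb.Pure, h1, h2, h3] using h4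
  · have e : ((mR (Sz M) *ᵥ v) ∘ Sum.inr) ∘ Sum.inr = rs No (sig (omz M.π) () v) :=
      funext fun l => by
        simp only [mR, Sz, mulVec, dotProduct, Function.comp, map_apply, of_apply, Sum.elim_inr,
          rs, sig]
        refine sum_congr rfl fun i _ => ?_
        rcases e : i.bs with _ | u <;> simp
    rw [e]
    refine (qq_rs pu (ort hT ?_) _).trans (qq_sig hT.pd hT.blk _ _)
    intro l l' h1 h2 h3 h4
    simpa only [No, Lb.Pure, h1, h2, h3] using h4

end Vale.Agent.P057TF
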