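import Vale.Agent.P057TF.Ic
import Vale.Agent.P057SK.Sig

/-! The old configuration as a sum of labels of the frozen cube system. -/

set_option linter.all false

open Matrix Finset
open Vale.Agent.P267.H775 Vale.Agent.P057G Vale.Agent.P057TP Vale.Agent.P057MA
open Vale.Agent.P057SG Vale.Agent.P057AS Vale.Agent.P057FC
open Vale.Agent.P057DP (pbo img mem_img at_pbo)
open Vale.Agent.P057DI (sig ov pt_sig)
open Vale.Agent.P057SY (fo)
open Vale.Agent.P057SK (none_fo er_fo)
open Vale.Agent.P057S1 (bs_unit)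

namespace Vale.Agent.P057TF.Old

noncomputable section

open Classical

variable {T : Tow} {n p : ℕ} {R ι : Type} [Fintype R] [DecidableEq R] [Fintype ι] [DecidableEq ι]

section lab

variable {O : Type} [Fintype O] {π : O → Uv n p R} {l : Lu T n p R}

theorem sum_ext (a : Lo T π → ℤ) (ξ : Lz T n p O → ℤ) (Q : Lz T n p O → Prop) [DecidablePred Q] :
    ∑ i, (if Q i then Function.extend ic a ξ i else 0) = ∑ k, (if Q (ic k) then a k else 0) +
      ∑ i, if Q i ∧ ¬∃ k : Lo T π, ic k = i then ξ i else 0 := by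
  rw [Fintype.sum_of_injective ic ic_inj _
    (fun i => if Q i ∧ ∃ k : Lo T π, ic k = i then Function.extend ic a ξ i else 0)
    (fun i c => if_neg fun e => c e.2) fun k => by simp [ic_inj.extend_apply], ← sum_add_distrib]
  refine sum_congr rfl fun i _ => ?_
  by_cases h : ∃ k : Lo T π, ic k = i
  · simp [h]
  · simp [h, Function.extend_apply' _ _ _ h]

theorem img_er (k : Lo T π) : img (omz π) (ic k).fc = eraseNone (k.fc.image (omo π)) := by
  ext u
  rw [img_ic, mem_eraseNone, mem_image, mem_image]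
  refine ⟨fun ⟨x, a, b⟩ => ⟨some x, mem_eraseNone.1 a, congrArg some b⟩, ?_⟩
  rintro ⟨_ | x, a, b⟩
  exacts [(by cases b), ⟨x, mem_eraseNone.2 a, Option.some.inj b⟩]

theorem over_bs {k : Lo T π} (h : (ic k).cd = l.cd ∧ img (omz π) (ic k).fc = l.fc) :
    (none ∈ k.fc ↔ l.bs ≠ none) ∧ l.Pure := by
  have c := card_ic k
  rw [← card_img_ic, h.2, show k.cd = l.cd from h.1] at c
  have d : none ∈ k.fc ↔ l.bs ≠ none := by
    refine ⟨fun a b => ?_, fun a => by_contra fun b => ?_⟩
    · rw [if_pos a, l.card_eq b] at c; omega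
    · have := l.card_lt ((bs_unit l).resolve_left a)
      rw [if_neg b] at c; omega
  exact ⟨d, or_iff_not_imp_left.2 fun a => by rwa [if_pos (d.2 a)] at c⟩

theorem over_ic (k : Lo T π) :
    k.cd = l.cd ∧ k.fc.image (omo π) = fo l ∧ l.Pure ↔
      (ic k).cd = l.cd ∧ img (omz π) (ic k).fc = l.fc := by
  refine and_congr_right fun h => ⟨fun e => by rw [img_er, e.1, er_fo], fun e => ?_⟩
  refine ⟨Finset.ext fun x => ?_, (over_bs ⟨h, e⟩).2⟩
  cases x with
  | some u => rw [← mem_eraseNone, ← img_er, e, ← mem_eraseNone, er_fo]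
  | none =>
    rw [none_fo, ← (over_bs ⟨h, e⟩).1, mem_image]
    refine ⟨?_, fun a => ⟨_, a, rfl⟩⟩
    rintro ⟨_ | x, a, b⟩
    exacts [a, by cases b]

theorem rng_ic {i : Lz T n p O} (h1 : i.cd = l.cd) (h2 : img (omz π) i.fc = l.fc) :
    (∃ k : Lo T π, ic k = i) ↔ l.Pure ∧ (l.bs ≠ none → i.bs ≠ none) := by
  refine ⟨?_, fun h => ?_⟩
  · rintro ⟨k, rfl⟩
    exact ⟨(over_bs ⟨h1, h2⟩).2, fun a => ic_bs_ne.2 ((over_bs ⟨h1, h2⟩).1.2 a)⟩
  have c := card_img_le (omz π) i.fc
  have d := i.card_le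
  rw [h2] at c
  rw [h1] at d
  have e : i.Pure ∧ l.fc.card = i.fc.card := by
    by_cases a : l.bs = none
    · have := l.card_eq a
      refine ⟨Or.inl ((bs_unit i).resolve_right fun b => ?_), by omega⟩
      have := i.card_lt b
      rw [h1] at this; omega
    · have b := h.1.resolve_left a
      have := i.card_lt ((bs_unit i).resolve_left (h.2 a))
      rw [h1] at this
      exact ⟨Or.inr (by rw [h1]; omega), by omega⟩
  exact mem_range_ic e.1 (h2 ▸ e.2) (h2 ▸ l.2.2.1)

theorem upz_eq (π : O → Uv n p R) (c : Finset (Wv n p)) :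
    upz (muz π) c = ov (omz π) (c.image Sum.inl) := by
  ext x
  rcases x with v | _ | o
  · simp [upz, ov, omz, -Prod.forall, -Sum.forall, -Prod.exists]
  · simp [upz, ov, omz, muz]
  · rcases h : π o with v | r <;> simp [upz, ov, omz, muz, h]

theorem inj_ov (π : O → Uv n p R) {B : Finset (Uv n p R)} (hB : Set.InjOn cU (B : Set (Uv n p R))) :
    Set.InjOn (cZ n p O) (ov (omz π) B) := by
  rintro (a | a) ha (b | b) hb e
  · have := hB ((mem_filter.1 ha).2 _ rfl) ((mem_filter.1 hb).2 _ rfl)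
      (congrArg some (Sum.inl_injective e))
    cases this; rfl
  · cases e
  · cases e
  · exact congrArg _ (Sum.inr_injective e)

end lab

variable {M : Mdd T n p R ι} {Z : Sys T (Uv n p R) Unit} {γ U : ℝ} {S : MS (Option (Fin n)) ι}
  {φ : (ι → ℝ) → Lu T n p R → ℝ} {k : ℕ}

theorem jkz_eq {v : Wz n p M.O} {u : Uv n p R} :
    jkz M.jo v = some u ↔ ∃ o, v = Sum.inr (some o) ∧ M.jo o = some u := by
  rcases v with v | _ | v <;> simp [jkz]

theorem img_ov (h : Md M Z γ S φ k U) (B : Finset (Uv n p R)) :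
    img (jkz M.jo) (ov (omz M.π) B) = B := by
  ext u
  simp only [mem_img, jkz_eq]
  refine ⟨?_, fun c => ?_⟩
  · rintro ⟨_, c, o, rfl, d⟩
    exact (mem_filter.1 c).2 u (congrArg some (h.jp o u d))
  · obtain ⟨o, d, -⟩ := h.ju u
    exact ⟨Sum.inr (some o), mem_filter.2 ⟨mem_univ _, fun w e =>
      Option.some.inj (show some (M.π o) = some w from e) ▸ (h.jp o u d).symm ▸ c⟩, o, rfl, d⟩

theorem at_ov (h : Md M Z γ S φ k U) (B : Finset (Uv n p R)) (a : T.ι) :
    Z.fam.at' (some ()) B a = (Zz M Z).fam.at' (some ()) (ov (omz M.π) B) a := by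
  rw [Zz, at_pbo Z (cl₁ := id) (fun v v' u h1 h2 => ?_) _ (Set.injOn_id _), img_ov h]
  · rfl
  · obtain ⟨o, rfl, c⟩ := jkz_eq.1 h1
    obtain ⟨o', rfl, c'⟩ := jkz_eq.1 h2
    rw [(h.ju u).unique c c']

theorem xk_lab (h : Md M Z γ S φ k U) (ξ : Lz T n p M.O → ℤ) (l : Lvo T M.π) :
    xk M (Sz M *ᵥ ξ) (M.lab l) = ξ (ic l.1) := by
  rw [xk, h.inj.extend_apply]
  simp [Sz, mulVec, dotProduct]

/-- the value of the model map -/
theorem phi_eq (h : Md M Z γ S φ k U) (ξ : Lz T n p M.O → ℤ) (l : Lu T n p R) :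
    round (φ (toR (xk M (Sz M *ᵥ ξ))) l) = ∑ k : Lo T M.π,
      if (ic k).cd = l.cd ∧ img (omz M.π) (ic k).fc = l.fc then
        (if Livo k then (∏ u ∈ k.fc, (M.e u : ℤ)) * ξ (ic k) else M.D k) else 0 := by
  obtain rfl : ‹DecidableEq R› = fun a b => Classical.propDecidable (a = b) := Subsingleton.elim _ _
  refine (congrArg round ?_).trans (round_intCast (α := ℝ) _)
  rw [h.map, rmo, Int.cast_sum]
  refine sum_congr rfl fun j _ => ?_
  by_cases c : (ic j).cd = l.cd ∧ img (omz M.π) (ic j).fc = l.fc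
  · rw [if_pos c, if_pos ((over_ic j).2 c), glo]
    split_ifs with d
    · rw [Function.comp_apply, toR_apply, xk_lab h]; simp
    · rfl
  · rw [if_neg c, if_neg fun e => c ((over_ic j).1 e), Int.cast_zero]

theorem ok_eq (h : Md M Z γ S φ k U) (d : ℕ) (ξ : Lz T n p M.O → ℤ) :
    ok M φ d (Sz M *ᵥ ξ) = sig (omz M.π) () (Xz M d ξ) := by
  funext l
  have e : sig (omz M.π) () (Xz M d ξ) l = (if l.bs = none then 1 else d : ℤ) *
      round (φ (toR (xk M (Sz M *ᵥ ξ))) l) + ∑ i, if (i.cd = l.cd ∧ img (omz M.π) i.fc = l.fc) ∧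
        ¬(l.Pure ∧ (l.bs ≠ none → i.bs ≠ none)) then ξ i else 0 := by
    rw [phi_eq h, mul_sum, sig]
    simp only [bs_unit, and_true]
    rw [Xz, sum_ext]
    congr 1
    · refine sum_congr rfl fun j _ => ?_
      by_cases c : (ic j).cd = l.cd ∧ img (omz M.π) (ic j).fc = l.fc
      · have b := (over_bs c).1
        rw [if_pos c, if_pos c, mo]
        by_cases a : none ∈ j.fc
        · simp [a, b.1 a, livo_iff.2 (Or.inl a), mul_assoc]
        · simp [a, not_not.1 (mt b.2 a)]
      · rw [if_neg c, if_neg c, mul_zero]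
    · refine sum_congr rfl fun i _ => if_congr (and_congr_right fun c => ?_) rfl rfl
      rw [rng_ic c.1 c.2]
  rw [e, ok, gl3]
  by_cases a : l.bs = none
  · rw [dif_pos (show Pu l from a), if_pos a, sum_eq_zero fun i _ =>
      if_neg fun c => c.2 ⟨Or.inl a, fun b => absurd a b⟩, add_zero, one_mul, rp]
  rw [dif_neg (show ¬Pu l from a), if_neg a]
  split_ifs with b
  · rw [add_comm]
    refine congrArg _ (sum_congr rfl fun i _ => ?_)
    simp only [Sz, of_apply, Function.comp_apply, Sum.elim_inr, Sum.elim_inl, ite_mul, one_mul,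
      zero_mul, b, a, and_assoc, Ne, not_false_eq_true, true_and, forall_const, not_not]
  · rw [phi_eq h, sum_eq_zero fun j _ => if_neg fun e => b (over_bs e).2, mul_zero, zero_add]
    refine sum_congr rfl fun i _ => ?_
    simp only [Sz, of_apply, Function.comp_apply, Sum.elim_inr, ite_mul, one_mul, zero_mul, b,
      false_and, not_false_eq_true, and_true]

theorem F_eq (h : Md M Z γ S φ k U) (f : ℤ → ℝ) (X : Lz T n p M.O → ℤ) {B : Finset (Uv n p R)}
    (hB : Set.InjOn cU (B : Set (Uv n p R))) : Z.F cU (n + 2) f (sig (omz M.π) () X) B () =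
      (Zz M Z).F (cZ n p M.O) (n + 2) f X (ov (omz M.π) B) () := by
  have e : ∀ y, Sys.full cU (n + 2) (sig (omz M.π) () X) B () y =
      Sys.full (cZ n p M.O) (n + 2) X (ov (omz M.π) B) () y := fun y => funext fun a => by
    rw [Sys.full, Sys.full, pt_sig () X () hB]
  have o : (Zz M Z).off (ov (omz M.π) B) () = Z.off B () := congrArg (Z.off · ()) (img_ov h B)
  simp only [Sys.F, e, at_ov h, o]

end

end Vale.Agent.P057TF.Old

namespace Vale.Agent.P057TF

theorem old : OLD := fun _ _ _ _ _ _ _ _ _ _ _ _ _ _ _ _ _ _ d _ _ _ h _ _ =>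
  ⟨Old.ok_eq h d, fun f X c hc => by
    rw [Old.upz_eq]
    refine Old.F_eq h f X fun a ha b hb e => ?_
    obtain ⟨a, h1, rfl⟩ := mem_image.1 ha
    obtain ⟨b, h2, rfl⟩ := mem_image.1 hb
    simp only [cells, mem_filter] at hc
    rw [hc.2.1 h1 h2 (Option.some.inj e)]⟩

end Vale.Agent.P057TF
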