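import Vale.Agent.P057FC.Tz

/-! The section, the multipliers and the shift of the frozen cube system. -/

set_option linter.all false

open Matrix Finset
open Vale.Agent.P267.H775 Vale.Agent.P057G Vale.Agent.P057PC Vale.Agent.P057TP Vale.Agent.P057MA
open Vale.Agent.P057SG Vale.Agent.P057AS Vale.Agent.P057FC
open Vale.Agent.P057DP (pbo img mem_img)

namespace Vale.Agent.P057TF.Sec

noncomputable section

open Classical

variable {T : Tow} {n p : ℕ} {R O : Type} {π : O → Uv n p R}

theorem lbx {C W S : Type} {cl : W → C} {m : ℕ} {l l' : Lb T cl S m} (h1 : l.cd = l'.cd)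
    (h2 : l.fc = l'.fc) (h3 : l.bs = l'.bs) : l = l' := Subtype.ext (Prod.ext h1 (Prod.ext h2 h3))

theorem ceq {C W S : Type} {cl : W → C} {m : ℕ} (l : Lb T cl S m) (h : l.bs = none) :
    l.fc.card = T.lv l.cd := by
  have := l.2.2.2
  rwa [show l.1.2.2 = none from h] at this

theorem clt {C W S : Type} {cl : W → C} {m : ℕ} (l : Lb T cl S m) (h : l.bs ≠ none) :
    l.fc.card < T.lv l.cd := by
  have := l.2.2.2
  obtain ⟨u, hu⟩ := Option.ne_none_iff_exists'.1 h
  rwa [show l.1.2.2 = some u from hu] at this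

theorem bsn (l : Lo T π) : l.bs = none := by
  cases h : l.bs with
  | none => rfl
  | some e => exact e.elim

theorem us {a b : Option Unit} (ha : a ≠ none) (hb : b ≠ none) : a = b := by
  cases a <;> cases b <;> simp_all

theorem mem_ic {l : Lo T π} {x : Wz n p O} :
    x ∈ (ic l).fc ↔ ∃ y, some y ∈ l.fc ∧ Sum.map id some y = x := by
  change x ∈ (eraseNone l.fc).map emz ↔ _
  simp only [mem_map, mem_eraseNone]
  rfl

theorem mem_ic' {l : Lo T π} {y : Wv n p ⊕ O} : Sum.map id some y ∈ (ic l).fc ↔ some y ∈ l.fc :=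
  mem_ic.trans ⟨fun ⟨_, a, b⟩ => emz.injective b ▸ a, fun a => ⟨_, a, rfl⟩⟩

theorem bs_ic {l : Lo T π} : (ic l).bs ≠ none ↔ none ∈ l.fc := by
  change (if none ∈ l.fc then some () else none) ≠ none ↔ _
  split_ifs with h <;> simp [h]

theorem ic_inj : (ic : Lo T π → _).Injective := fun l l' e =>
  lbx (congrArg Lb.cd e :) (Finset.ext fun x => by
    cases x with
    | none => rw [← bs_ic, ← bs_ic, e]
    | some y => rw [← mem_ic', ← mem_ic', e]) ((bsn l).trans (bsn l').symm)

theorem live_ic {l : Lo T π} : Live (ic l) ↔ Livo l := by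
  unfold Live Livo lfo
  rw [bs_ic, biUnion_nonempty]
  refine ⟨fun h => h.elim (fun a => ⟨_, a, singleton_nonempty _⟩) fun ⟨v, a⟩ =>
    ⟨_, (mem_ic' (y := Sum.inl v)).1 (mem_toLeft.1 a), singleton_nonempty _⟩, fun ⟨x, a, b⟩ => ?_⟩
  rcases x with _ | v | o
  exacts [Or.inl a, Or.inr ⟨v, mem_toLeft.2 ((mem_ic' (y := Sum.inl v)).2 a)⟩,
    absurd b not_nonempty_empty]

theorem pure_ic (l : Lo T π) : (ic l).Pure := by
  refine (_root_.em ((ic l).bs = none)).imp_right fun h => ?_
  have k := bs_ic.1 h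
  change ((eraseNone l.fc).map emz).card + 1 = T.lv l.cd
  rw [card_map, card_eraseNone_of_mem k, ← ceq l (bsn l)]
  exact Nat.sub_add_cancel (card_pos.2 ⟨_, k⟩)

theorem none_lfo (l : Lo T π) : none ∈ lfo l ↔ none ∈ l.fc := by
  unfold lfo
  rw [mem_biUnion]
  refine ⟨fun ⟨x, h1, h2⟩ => ?_, fun h => ⟨none, h, mem_singleton_self _⟩⟩
  rcases x with _ | x | x
  · exact h1
  · simp [lco] at h2
  · simp [lco] at h2

variable [DecidableEq R]

theorem card_ic (l : Lo T π) : (img (omz π) (ic l).fc).card = (ic l).fc.card := by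
  have k : ∀ y : Wv n p ⊕ O, omz π (Sum.map id some y) = some (Sum.elim Sum.inl π y) := by
    rintro (y | y) <;> rfl
  have c : ∀ y : Wv n p ⊕ O, cVo π (some y) = some (cU (Sum.elim Sum.inl π y)) := by
    rintro (y | y) <;> rfl
  have e : img (omz π) (ic l).fc = (eraseNone l.fc).image (Sum.elim Sum.inl π) := by
    ext u
    rw [mem_img, mem_image]
    refine ⟨fun ⟨x, a, b⟩ => ?_, fun ⟨y, a, b⟩ => ⟨_, mem_ic'.2 (mem_eraseNone.1 a), b ▸ k y⟩⟩
    obtain ⟨y, a', rfl⟩ := mem_ic.1 a
    exact ⟨y, mem_eraseNone.2 a', Option.some_injective _ ((k y).symm.trans b)⟩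
  rw [e, card_image_of_injOn (s := eraseNone l.fc) fun a ha b hb h => Option.some_injective _
    (l.2.2.1 (mem_eraseNone.1 ha) (mem_eraseNone.1 hb) (by rw [c, c, h]))]
  exact (card_map _).symm

variable {ι : Type} [Fintype ι] [DecidableEq ι] [Fintype R] {M : Mdd T n p R ι}
  {Z : Sys T (Uv n p R) Unit} {γ U : ℝ} {S : MS (Option (Fin n)) ι}
  {φ : (ι → ℝ) → Lu T n p R → ℝ} {k : ℕ} (h : Md M Z γ S φ k U)

/-- the frozen vertex that carries the lower order terms -/
def jv (u : Uv n p R) : Wz n p M.O := Sum.inr (some (h.ju u).choose)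

theorem om_jv (u : Uv n p R) : omz M.π (jv h u) = some u :=
  congrArg some (h.jp _ _ (h.ju u).choose_spec.1)

theorem card_jv (B : Finset (Uv n p R)) : (B.image (jv h)).card = B.card :=
  card_image_of_injective _ fun u v e => Option.some_injective _ (by rw [← om_jv h, e, om_jv])

theorem img_jv (B : Finset (Uv n p R)) : img (omz M.π) (B.image (jv h)) = B := by
  ext u
  rw [mem_img]
  refine ⟨fun ⟨x, a, b⟩ => ?_, fun a => ⟨_, mem_image_of_mem _ a, om_jv h u⟩⟩
  obtain ⟨v, c, rfl⟩ := mem_image.1 a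
  exact Option.some_injective _ ((om_jv h v).symm.trans b) ▸ c

theorem img_jv' (B : Finset (Uv n p R)) :
    img (omz M.π) (insert (Sum.inr none) (B.image (jv h))) = B := by
  ext u
  rw [mem_img]
  refine ⟨fun ⟨x, a, b⟩ => ?_, fun a => ⟨_, mem_insert_of_mem (mem_image_of_mem _ a), om_jv h u⟩⟩
  rcases mem_insert.1 a with rfl | a
  · cases b
  · obtain ⟨v, c, rfl⟩ := mem_image.1 a
    exact Option.some_injective _ ((om_jv h v).symm.trans b) ▸ c

theorem inj_jv (B : Finset (Uv n p R)) :
    Set.InjOn (cZ n p M.O) ↑(insert (Sum.inr none) (B.image (jv h))) := by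
  have : ∀ x ∈ insert (Sum.inr none) (B.image (jv h)), ∃ o, x = Sum.inr o := fun x a => by
    rcases mem_insert.1 a with rfl | a
    · exact ⟨_, rfl⟩
    · obtain ⟨v, -, rfl⟩ := mem_image.1 a
      exact ⟨_, rfl⟩
  intro a ha b hb e
  obtain ⟨o, rfl⟩ := this a ha
  obtain ⟨o', rfl⟩ := this b hb
  exact congrArg _ (Sum.inr_injective e)

theorem li_card (l : Lg T n p R) : l.1.fc.card + 1 = T.lv l.1.cd := l.2.1.resolve_left l.2.2

theorem no_card (l : NP T (cU : Uv n p R → _) (n + 2)) : l.1.fc.card + 1 < T.lv l.1.cd :=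
  lt_of_le_of_ne (clt _ fun e => l.2 (Or.inl e)) fun e => l.2 (Or.inr e)

/-- the section -/
def se : Kz M → Lz T n p M.O :=
  Sum.elim (fun l => ic l.1) (Sum.elim
    (fun l => ⟨(l.1.cd, insert (Sum.inr none) (l.1.fc.image (jv h)), none), l.1.2.1, inj_jv h _, by
      change (insert _ _ : Finset _).card = _
      rw [card_insert_of_notMem (by simp [jv]), card_jv, li_card]⟩)
    fun l => ⟨(l.1.cd, l.1.fc.image (jv h), some ()), l.1.2.1,
      (inj_jv h _).mono (coe_subset.2 (subset_insert _ _)),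
      (card_jv h _).trans_lt (Nat.lt_of_succ_lt (no_card l))⟩)

theorem pure_le {i : Lz T n p M.O} (hi : i.Pure) : T.lv i.cd ≤ i.fc.card + 1 :=
  hi.elim (fun e => (ceq i e).ge.trans (Nat.le_succ _)) fun e => e.ge

theorem Sz_se (a b : Kz M) : Sz M a (se h b) = (1 : Matrix _ _ ℤ) a b := by
  rw [one_apply]
  rcases a with l | l | l <;> rcases b with l' | l' | l' <;>
    refine @if_congr _ _ _ (_) (_) _ _ _ _ ?_ rfl rfl
  · exact ⟨fun e => congrArg _ (Subtype.ext (ic_inj e).symm), fun e => by cases e; rfl⟩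
  · refine iff_of_false (fun e => ?_) Sum.inl_ne_inr
    have : Sum.inr none ∈ (ic l.1).fc := e ▸ mem_insert_self _ _
    obtain ⟨y | y, -, a⟩ := mem_ic.1 this <;> cases a
  · refine iff_of_false (fun e => ?_) Sum.inl_ne_inr
    have := pure_le (e ▸ pure_ic l.1)
    exact (no_card l').not_ge (card_jv h l'.1.fc ▸ this)
  · refine iff_of_false (fun e => ?_) Sum.inr_ne_inl
    have h1 := card_ic l'.1
    have h2 := ceq _ e.2.2
    have h3 := li_card l
    rw [← e.1, ← e.2.1] at h3
    change (img _ (ic l'.1).fc).card + 1 = T.lv (ic l'.1).cd at h3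
    change (ic l'.1).fc.card = T.lv (ic l'.1).cd at h2
    omega
  · exact ⟨fun e => congrArg _ (congrArg _ (Subtype.ext (lbx e.1.symm
      (e.2.1.symm.trans (img_jv' h _)) (us l.2.2 l'.2.2)))),
      fun e => by cases e; exact ⟨rfl, img_jv' h _, rfl⟩⟩
  · exact iff_of_false (fun e => by cases e.2.2) (by simp)
  · refine iff_of_false (fun e => ?_) Sum.inr_ne_inl
    have h1 := card_ic l'.1
    have h2 := pure_le (pure_ic l'.1)
    have h3 := no_card l
    rw [← e.1, ← e.2] at h3
    change (img _ (ic l'.1).fc).card + 1 < T.lv (ic l'.1).cd at h3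
    omega
  · refine iff_of_false (fun e => ?_) (by simp)
    have h3 := no_card l
    rw [← e.1, ← e.2.symm.trans (img_jv' h _) |>.symm] at h3
    exact h3.ne (li_card l')
  · exact ⟨fun e => congrArg _ (congrArg _ (Subtype.ext (lbx e.1.symm
      (e.2.symm.trans (img_jv h _)) (us (fun x => l.2 (Or.inl x)) fun x => l'.2 (Or.inl x))))),
      fun e => by cases e; exact ⟨rfl, img_jv h _⟩⟩

theorem _root_.Vale.Agent.P057TF.sec : SEC := by
  intro s N T n p R ι _ _ _ _ M Z γ S φ k U d hT hZ hS h hU hd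
  refine ⟨⟨se h, Sz_se h, fun a i e => ?_⟩, fun i => ?_, fun l => ⟨live_ic.2 l.2, pure_ic _,
    fun v => ?_⟩, fun x i hi => ?_, fun x x' e => ?_⟩
  · rcases a with l | l | l
    · exact (congrArg (T.lv ·.cd) (by_contra fun y => e (if_neg y) : i = ic l.1)).le
    · exact (congrArg T.lv (by_contra fun y => e (if_neg fun z => y z.1) : i.cd = l.1.cd)).le
    · exact (congrArg T.lv (by_contra fun y => e (if_neg fun z => y z.1) : i.cd = l.1.cd)).le
  · unfold mz Xz
    by_cases hi : ∃ l : Lo T M.π, ic l = i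
    · obtain ⟨l, rfl⟩ := hi
      simp only [ic_inj.extend_apply, live_ic]
      by_cases y : Livo l
      · simp only [if_pos y]
        refine ⟨mul_pos (by split_ifs <;> positivity) (prod_pos fun u _ => Nat.cast_pos.2 (h.eb u).1),
          ?_, fun a => (a y).elim, fun _ _ => trivial, fun _ _ a => by rw [a]⟩
        push_cast
        exact mul_dvd_mul (by split_ifs <;> simp) (prod_dvd_prod_of_subset _ _ _ (subset_univ _))
      · simp [y]
    · simp only [Function.extend_apply' _ _ _ hi]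
      simp
  · refine (@mem_filter _ _ (_) _ _).trans ((and_iff_right (mem_univ _)).trans ?_)
    cases v with
    | none => exact bs_ic.symm
    | some w => exact (mem_ic' (y := Sum.inl w)).symm
  · unfold cz
    by_cases y : ∃ l, M.lab l = i
    · obtain ⟨l, rfl⟩ := y
      rw [h.inj.extend_apply, if_neg fun a => hi (h.fc l ▸ (none_lfo _).2 a)]
    · rw [Function.extend_apply' _ _ _ y]; rfl
  · have : (fun k : Lo T M.π => if none ∈ k.fc then 0 else glo M.e (toR x ∘ M.lab) M.D k) =
        fun k => if none ∈ k.fc then 0 else glo M.e (toR x' ∘ M.lab) M.D k := funext fun k => by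
      split_ifs with a
      · rfl
      · unfold glo
        split_ifs with b
        · refine congrArg _ (congrArg Int.cast (e _ (fun c => (mem_filter.1 c).2 ⟨_, rfl⟩) ?_))
          rw [h.fc, none_lfo]
          exact a
        · rfl
    unfold cz
    rw [this]

end

end Vale.Agent.P057TF.Sec
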