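import Vale.Agent.P057SK.Sig
import Vale.Agent.P057DI.Sig

/-!
Centres of pure labels along an injection of vertices; the special vertex as a further vertex.
-/

set_option linter.all false

open Matrix Finset
open Vale.Agent.P267.H775 Vale.Agent.P057G Vale.Agent.P057PC Vale.Agent.P057TP Vale.Agent.P057SG
open Vale.Agent.P057GH (pt_congr lb_ext)
open Vale.Agent.P057EN (tot tot_lab)
open Vale.Agent.P057SY (fo)
open Vale.Agent.P057SK (bs_none er_fo)
open Vale.Agent.P057S1

namespace Vale.Agent.P057TF.Cn

noncomputable section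

open Classical

variable {T : Tow} {C C' W V S : Type} [Fintype W] [DecidableEq W] [Fintype V] [DecidableEq V]
  [Fintype S] {cl : W → C} {cl' : V → C'} {m : ℕ} {g : V → W}

theorem pr_pure (Z : Sys T W S) {x x' : Lb T cl S m → ℝ} {l : Lb T cl S m} (hl : l.bs = none)
    (h : ∀ k : Lb T cl S m, k.bs = none → k.fc ⊆ l.fc → x k = x' k) :
    Z.pr cl m x l = Z.pr cl m x' l :=
  sum_congr rfl fun B hB => by
    rw [hl, funext fun a => pt_congr (x := x) (x' := x') (o := none) (A := B) (a := a)
      fun k _ h2 h3 => h k (h3.elim id id) (h2.trans (mem_powerset.1 hB))]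

variable (hg : g.Injective) (hc : ∀ v v', cl (g v) = cl (g v') → cl' v = cl' v')

/-- the image of a pure label -/
def im (S : Type) (k : Lb T cl' Empty m) : Lb T cl S m :=
  ⟨(k.cd, k.fc.image g, none), k.2.1, by
    rintro _ a _ b e
    obtain ⟨u, hu, rfl⟩ := mem_image.1 a
    obtain ⟨v, hv, rfl⟩ := mem_image.1 b
    rw [k.2.2.1 hu hv (hc _ _ e)], (card_image_of_injective _ hg).trans (k.card_eq (bs_none k))⟩

theorem im_inj : (im hg hc S : Lb T cl' Empty m → _).Injective := fun k k' e =>
  lb_ext (congrArg Lb.cd e :) (image_injective hg (congrArg Lb.fc e))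
    ((bs_none k).trans (bs_none k').symm)

theorem mem_im {l : Lb T cl S m} (hl : l.bs = none) {A : Finset V} (hA : Set.InjOn cl' A)
    (h : l.fc = A.image g) : ∃ k : Lb T cl' Empty m, im hg hc S k = l ∧ k.fc = A :=
  ⟨⟨(l.cd, A, none), l.2.1, hA, by
    rw [← l.card_eq hl, h, card_image_of_injective _ hg]; rfl⟩, lb_ext rfl h.symm hl.symm, rfl⟩

theorem pt_im {R : Type} [AddCommMonoid R] (x : Lb T cl S m → R) {B : Finset V}
    (hB : Set.InjOn cl' B) : pt (x ∘ im hg hc S) none B = pt x none (B.image g) := by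
  funext a
  refine Fintype.sum_of_injective _ (im_inj hg hc) _ _ (fun l hl => if_neg fun e => hl ?_)
    fun k => @if_congr _ _ _ (_) (_) _ _ _ _ ?_ rfl rfl
  · obtain ⟨A, h1, h2⟩ := subset_image_iff.1 e.2.1
    exact (mem_im hg hc (e.2.2.elim id id) (hB.mono h1) h2.symm).imp fun _ h => h.1
  · change _ ↔ k.cd = a ∧ k.fc.image g ⊆ _ ∧ (none = none ∨ none = none)
    rw [image_subset_image_iff hg, bs_none k]
    simp

theorem pr_im {Z : Sys T W S} {Z' : Sys T V Empty} (x : Lb T cl S m → ℝ) (k : Lb T cl' Empty m)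
    (ha : ∀ B ⊆ k.fc, Z'.fam.at' none B k.cd = Z.fam.at' none (B.image g) k.cd) :
    Z'.pr cl' m (x ∘ im hg hc S) k = Z.pr cl m x (im hg hc S k) := by
  change _ = Z.fam.alt (pt x) none (k.fc.image g) k.cd
  unfold Sys.pr Fam.alt
  rw [powerset_image, sum_image fun _ _ _ _ e => image_injective hg e, bs_none k]
  refine sum_congr rfl fun B hB => ?_
  rw [card_image_of_injective _ hg, card_image_of_injective _ hg, ha B (mem_powerset.1 hB),
    pt_im hg hc x (k.2.2.1.mono (mem_powerset.1 hB))]

omit hg hc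

/-- the pure part of a configuration -/
def pu (u : Lb T cl Unit m → ℝ) (l : Lb T cl Unit m) : ℝ := if l.bs = none then u l else 0

/-- the centre of a pure label, seen in the system with the special vertex as a vertex -/
theorem pr_ex {Z : Sys T W Unit} (h : Z.Ok) (u : Lb T cl Unit m → ℝ) {l : Lb T cl Unit m}
    {k : Lb T (Option.map cl) Unit m} (h1 : k.cd = l.cd) (h2 : k.fc = fo l) (h3 : k.bs = none) :
    Z.pr cl m u l = (ext Z).pr (Option.map cl) m (jn (Option.map cl) u u) k +
      if l.bs = none then 0 else Z.pr cl m (pu u) l := by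
  split_ifs with e
  · have := pr_dy (ok_ext h) (jn (Option.map cl) u u) (inj_img l)
    rw [pr_dy_ext, vy_jn', vy, ← h1, show l.fc.image some = k.fc by rw [h2, fo, if_pos e],
      tot_lab _ (bs_unit k)] at this
    rw [this, add_zero]
  · have := pr_diff (ok_ext h) (pu u) (x := u - pu u) (fun j hj => by simp [pu, show j.bs = none from hj]) l
    rw [pr_mg_ext, pr_dy_ext, add_sub_cancel, vx, ← h1,
      show insert none (l.fc.image some) = k.fc by rw [h2, fo, if_neg e], tot_lab _ (bs_unit k)] at this
    rw [this, add_comm]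
    congr 1
    exact pr_pure _ h3 fun j hj _ => jn_pure (fun i hi => if_pos hi)
      (fun i hi => by simp [pu, show ¬ i.bs = none from hi.2]) hj

end

end Vale.Agent.P057TF.Cn
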