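import Vale.Agent.P057FC.Tz

/-! The labels of a model as pure labels of the frozen cube system. -/

set_option linter.all false

open Matrix Finset
open Vale.Agent.P267.H775 Vale.Agent.P057G Vale.Agent.P057PC Vale.Agent.P057TP Vale.Agent.P057MA
open Vale.Agent.P057SG Vale.Agent.P057AS Vale.Agent.P057FC
open Vale.Agent.P057DP (pbo img mem_img)

namespace Vale.Agent.P057TF

noncomputable section

open Classical

variable {T : Tow} {n p : ℕ} {R O : Type} {π : O → Uv n p R}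

theorem ic_cd (l : Lo T π) : (ic l).cd = l.cd := rfl

theorem ic_fc (l : Lo T π) : (ic l).fc = (eraseNone l.fc).map emz := rfl

theorem ic_bs (l : Lo T π) : (ic l).bs = if none ∈ l.fc then some () else none := rfl

theorem lo_bs (l : Lo T π) : l.bs = none := by
  rcases k : l.bs with _ | e
  exacts [rfl, e.elim]

theorem lo_card (l : Lo T π) : l.fc.card = T.lv l.cd := by
  have := l.2.2.2
  have k : l.1.2.2 = none := lo_bs l
  rwa [k] at this

theorem lo_ext {l l' : Lo T π} (h1 : l.cd = l'.cd) (h2 : l.fc = l'.fc) : l = l' :=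
  Lb.ext' h1 h2 ((lo_bs l).trans (lo_bs l').symm)

theorem ic_bs_none {l : Lo T π} : (ic l).bs = none ↔ none ∉ l.fc := by
  rw [ic_bs]; split_ifs with h <;> simp [h]

theorem ic_bs_ne {l : Lo T π} : (ic l).bs ≠ none ↔ none ∈ l.fc := by
  rw [Ne, ic_bs_none, not_not]

theorem emz_mem {l : Lo T π} {x : Wv n p ⊕ O} : emz x ∈ (ic l).fc ↔ some x ∈ l.fc := by
  rw [ic_fc, mem_map', mem_eraseNone]

theorem inl_mem {l : Lo T π} {v : Wv n p} : Sum.inl v ∈ (ic l).fc ↔ some (Sum.inl v) ∈ l.fc :=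
  emz_mem (x := Sum.inl v)

theorem inr_mem {l : Lo T π} {o : O} :
    Sum.inr (some o) ∈ (ic l).fc ↔ some (Sum.inr o) ∈ l.fc := emz_mem (x := Sum.inr o)

theorem none_not_mem (l : Lo T π) : Sum.inr none ∉ (ic l).fc := fun h => by
  obtain ⟨a | a, -, e⟩ := mem_map.1 h <;> cases e

theorem ic_fc_iff {l l' : Lo T π} :
    (ic l).fc = (ic l').fc ∧ (ic l).bs = (ic l').bs ↔ l.fc = l'.fc := by
  refine ⟨fun h => Finset.ext fun x => ?_, fun h => by simp only [ic_fc, ic_bs, h, and_self]⟩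
  cases x with
  | none => rw [← ic_bs_ne, h.2, ic_bs_ne]
  | some x => rw [← emz_mem, h.1, emz_mem]

theorem ic_inj : (ic : Lo T π → _).Injective := fun _ _ e =>
  lo_ext (congrArg Lb.cd e :) (ic_fc_iff.1 ⟨congrArg Lb.fc e, congrArg Lb.bs e⟩)

theorem gam_ic (l l' : Lo T π) :
    Gam T (cZ n p O) Unit (n + 2) (ic l) (ic l') = Gam T (cVo π) Empty (n + 2) l l' := by
  simp only [Gam, of_apply, ic_fc_iff, lo_bs, and_true, ic_cd]

theorem livo_iff {l : Lo T π} : Livo l ↔ none ∈ l.fc ∨ ∃ v, some (Sum.inl v) ∈ l.fc := by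
  refine ⟨fun ⟨c, h⟩ => ?_, ?_⟩
  · obtain ⟨x, h1, h2⟩ := mem_biUnion.1 h
    rcases x with _ | v | o
    exacts [Or.inl h1, Or.inr ⟨v, h1⟩, by simp [lco] at h2]
  · rintro (h | ⟨v, h⟩)
    exacts [⟨none, mem_biUnion.2 ⟨_, h, by simp [lco]⟩⟩,
      ⟨some v.1, mem_biUnion.2 ⟨_, h, by simp [lco]⟩⟩]

theorem none_lfo {l : Lo T π} : none ∈ lfo l ↔ none ∈ l.fc := by
  refine ⟨fun h => ?_, fun h => mem_biUnion.2 ⟨_, h, by simp [lco]⟩⟩
  obtain ⟨x, h1, h2⟩ := mem_biUnion.1 h
  rcases x with _ | v | o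
  exacts [h1, by simp [lco] at h2, by simp [lco] at h2]

theorem live_ic {l : Lo T π} : Live (ic l) ↔ Livo l := by
  rw [livo_iff, Live, ic_bs_ne]
  exact or_congr_right (exists_congr fun v => mem_toLeft.trans inl_mem)

theorem card_ic (l : Lo T π) :
    (ic l).fc.card + (if none ∈ l.fc then 1 else 0) = T.lv l.cd := by
  rw [ic_fc, card_map, ← lo_card]
  split_ifs with k
  · rw [card_eraseNone_of_mem k]; exact Nat.sub_add_cancel (card_pos.2 ⟨_, k⟩)
  · exact card_eraseNone_of_not_mem k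

theorem pure_ic (l : Lo T π) : (ic l).Pure := by
  have := card_ic l
  by_cases k : none ∈ l.fc
  · rw [if_pos k] at this; exact Or.inr this
  · exact Or.inl (ic_bs_none.2 k)

theorem omz_emz (π : O → Uv n p R) (x : Wv n p ⊕ O) :
    omz π (emz x) = some (Sum.elim Sum.inl π x) := by cases x <;> rfl

theorem cvo_some (π : O → Uv n p R) (x : Wv n p ⊕ O) :
    cVo π (some x) = some (cU (Sum.elim Sum.inl π x)) := by cases x <;> rfl

theorem card_img_le {W W₁ : Type} [DecidableEq W] (om : W₁ → Option W) (A : Finset W₁) :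
    (img om A).card ≤ A.card := by
  refine card_biUnion_le.trans ?_
  rw [card_eq_sum_ones A]
  exact sum_le_sum fun x _ => by cases om x <;> simp

variable [DecidableEq R]

theorem img_ic (l : Lo T π) :
    img (omz π) (ic l).fc = (eraseNone l.fc).image (Sum.elim Sum.inl π) := by
  ext u
  simp only [mem_img, ic_fc, mem_map, mem_image]
  refine ⟨fun ⟨_, ⟨x, h, rfl⟩, e⟩ => ⟨x, h, Option.some_injective _ ((omz_emz π x).symm.trans e)⟩,
    fun ⟨x, h, e⟩ => ⟨_, ⟨x, h, rfl⟩, e ▸ omz_emz π x⟩⟩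

theorem inj_ic (l : Lo T π) :
    Set.InjOn (fun x => cU (Sum.elim Sum.inl π x)) (eraseNone l.fc) := fun a ha b hb e =>
  Option.some_injective _ (l.2.2.1 (mem_eraseNone.1 ha) (mem_eraseNone.1 hb)
    (by rw [cvo_some, cvo_some]; exact congrArg some e))

theorem card_img_ic (l : Lo T π) : (img (omz π) (ic l).fc).card = (ic l).fc.card := by
  rw [img_ic, ic_fc, card_map]
  exact card_image_of_injOn fun a ha b hb e => inj_ic l ha hb (congrArg cU e)

theorem injOn_img_ic (l : Lo T π) : Set.InjOn cU (img (omz π) (ic l).fc : Set (Uv n p R)) := by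
  rw [img_ic]
  intro a ha b hb e
  obtain ⟨a, h1, rfl⟩ := mem_image.1 ha
  obtain ⟨b, h2, rfl⟩ := mem_image.1 hb
  rw [inj_ic l h1 h2 e]

theorem mem_range_ic {i : Lz T n p O} (h1 : i.Pure)
    (h2 : (img (omz π) i.fc).card = i.fc.card)
    (h3 : Set.InjOn cU (img (omz π) i.fc : Set (Uv n p R))) : ∃ l : Lo T π, ic l = i := by
  have hn : Sum.inr none ∉ i.fc := fun h => by
    have : img (omz π) i.fc = img (omz π) (i.fc.erase (Sum.inr none)) := by
      ext u
      simp only [mem_img, mem_erase]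
      exact ⟨fun ⟨x, a, b⟩ => ⟨x, ⟨fun e => (by subst e; cases b), a⟩, b⟩,
        fun ⟨x, a, b⟩ => ⟨x, a.2, b⟩⟩
    have h4 := card_img_le (omz π) (i.fc.erase (Sum.inr none))
    rw [← this, h2, card_erase_of_mem h] at h4
    have := card_pos.2 ⟨_, h⟩
    omega
  set A : Finset (Wv n p ⊕ O) := i.fc.preimage emz emz.injective.injOn
  have hA : A.map emz = i.fc := by
    ext x
    simp only [A, mem_map, mem_preimage]
    refine ⟨fun ⟨y, a, b⟩ => b ▸ a, fun h => ?_⟩
    rcases x with v | _ | o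
    exacts [⟨Sum.inl v, h, rfl⟩, (hn h).elim, ⟨Sum.inr o, h, rfl⟩]
  have cA : A.card = i.fc.card := by rw [← hA, card_map]
  have hI : img (omz π) i.fc = A.image (Sum.elim Sum.inl π) := by
    ext u
    rw [← hA]
    simp only [mem_img, mem_map, mem_image]
    exact ⟨fun ⟨_, ⟨x, h, rfl⟩, e⟩ => ⟨x, h, Option.some_injective _ ((omz_emz π x).symm.trans e)⟩,
      fun ⟨x, h, e⟩ => ⟨_, ⟨x, h, rfl⟩, e ▸ omz_emz π x⟩⟩
  have j1 : Set.InjOn (Sum.elim Sum.inl π) (A : Set (Wv n p ⊕ O)) :=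
    card_image_iff.1 (by rw [← hI, h2, cA])
  have j2 : ∀ a ∈ A, ∀ b ∈ A, cVo π (some a) = cVo π (some b) → a = b := fun a ha b hb e => by
    rw [cvo_some, cvo_some] at e
    exact j1 ha hb (h3 (hI ▸ mem_image_of_mem _ ha) (hI ▸ mem_image_of_mem _ hb)
      (Option.some_injective _ e))
  have hl : i.bs.elim (i.fc.card = T.lv i.cd) fun _ => i.fc.card < T.lv i.cd := i.2.2.2
  rcases k : i.bs with _ | u
  · rw [k] at hl
    refine ⟨⟨(i.cd, A.map .some, none), i.2.1, ?_, (card_map _).trans (cA.trans hl)⟩,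
      Lb.ext' rfl ?_ ?_⟩
    · intro a ha b hb e
      obtain ⟨a, c1, rfl⟩ := mem_map.1 ha
      obtain ⟨b, c2, rfl⟩ := mem_map.1 hb
      exact congrArg _ (j2 a c1 b c2 e)
    · exact (congrArg (map emz) (eraseNone_map_some A)).trans hA
    · exact (if_neg (by simp [Lb.fc])).trans k.symm
  · have hc : i.fc.card + 1 = T.lv i.cd := h1.resolve_left (by simp [k])
    refine ⟨⟨(i.cd, insertNone A, none), i.2.1, ?_, (card_insertNone _).trans (cA ▸ hc)⟩,
      Lb.ext' rfl ?_ ?_⟩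
    · rintro (_ | a) ha (_ | b) hb e
      · rfl
      · cases e
      · cases e
      · exact congrArg _ (j2 a (some_mem_insertNone.1 ha) b (some_mem_insertNone.1 hb) e)
    · exact (congrArg (map emz) (eraseNone_insertNone A)).trans hA
    · exact (if_pos (by simp [Lb.fc])).trans k.symm

/-- the range of `ic` is a union of blocks -/
theorem blk_ic (l : Lo T π) {j : Lz T n p O} (h1 : (ic l).fc = j.fc) (h2 : (ic l).bs = j.bs)
    (h3 : T.lv l.cd = T.lv j.cd) : ∃ l' : Lo T π, ic l' = j ∧ l'.fc = l.fc :=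
  ⟨⟨(j.cd, l.fc, none), j.2.1, l.2.2.1, (lo_card l).trans h3⟩, Lb.ext' rfl h1 h2, rfl⟩

end

end Vale.Agent.P057TF
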